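import Mathlib
import Vale.Agent.P322.Defs
import Vale.Agent.P322.DefsB
import Vale.Agent.P322.Main
import Vale.Agent.P322.Coord

open Vale.Agent.P322

theorem Vale.Agent.Results.P322.A000_Combined.result :
    (∀ (n : ℕ) (f : (Fin n → Bool) → Bool) (ε : ℝ), 0 ≤ ε → ε ≤ 1 / 2 →
      mutualInfoBits (jointFY f ε)
        ≤ (1 - 2 * ε) ^ 2 * h2 (probTrue f)
          / (1 + Real.log 2 / 3 * h2 (probTrue f) * (1 - (1 - 2 * ε) ^ 2))) ∧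
    (∀ (n : ℕ) (f : (Fin n → Bool) → Bool) (ε : ℝ), 0 ≤ ε → ε ≤ 1 / 2 →
      h2 (probTrue f) ≤ 0.865 →
      mutualInfoBits (jointFY f ε) ≤ 1 - h2 ε) ∧
    (∀ (n : ℕ) (f : (Fin n → Bool) → Bool) (ε : ℝ), 0 ≤ ε → ε ≤ 1 / 2 →
      ∑ i, mutualInfoBits (jointFYi f ε i) ≤ 1 - h2 ε) :=
  ⟨fun _ f ε h0 h1 => improved_sdpi f ε h0 h1,
   fun _ f ε h0 h1 hf => ck_biased f ε h0 h1 hf,
   fun _ f ε h0 h1 => coordinatewise f ε h0 h1⟩
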