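import Mathlib
import Vale.Agent.P322.Defs
import Vale.Agent.P322.DefsB
import Vale.Agent.P322.Main

open Vale.Agent.P322

theorem Vale.Agent.Results.P322.A_NonlinearSDPI.result :
    ∀ (n : ℕ) (f : (Fin n → Bool) → Bool) (ε : ℝ), 0 ≤ ε → ε ≤ 1 / 2 →
      mutualInfoBits (jointFY f ε)
        ≤ (1 - 2 * ε) ^ 2 * h2 (probTrue f)
          / (1 + Real.log 2 / 3 * h2 (probTrue f) * (1 - (1 - 2 * ε) ^ 2)) :=
  fun _ f ε h0 h1 => improved_sdpi f ε h0 h1
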