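import Mathlib
import Vale.Agent.P322.Defs
import Vale.Agent.P322.Coord

open Vale.Agent.P322

theorem Vale.Agent.Results.P322.C_CoordAllMeans.result :
    ∀ (n : ℕ) (f : (Fin n → Bool) → Bool) (ε : ℝ), 0 ≤ ε → ε ≤ 1 / 2 →
      ∑ i, mutualInfoBits (jointFYi f ε i) ≤ 1 - h2 ε :=
  fun _ f ε h0 h1 => coordinatewise f ε h0 h1
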